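import Crest.Agent.X212.Qab60.Hj_Mg
import Crest.Agent.X212.Cqn41.Nr0
import Crest.Agent.X212.Pat85.Mov

/-!
# Row 212, RF-Q (helper38): `Nr41.TQ` at transverse face objects; `Rf65.QStmt` from the leaves
-/

set_option autoImplicit false
set_option linter.unusedSectionVars false
noncomputable section
open scoped Manifold ContDiff Topology Real
open MeasureTheory Set Function Filter

namespace Crest.Agent.X212.Tm38.Qt
open An M Nd18 Rf65 Qab60 Trq48 Nr41 G75 Ins26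
open An.Job (Sol)

section job
variable {Wi : Type} {X : Mf 4} {A κ lam : Type} [Fintype A] [Fintype κ] [Fintype lam]
  [DecidableEq lam] {M : Mark X A κ} {W : World M} {N : ML M lam} {Λ : Lns W N}
  {A' h : Type} [Fintype A'] [DecidableEq A'] [Fintype h] {r n : ℕ}
  {J : Job Wi Λ A' h r n} {c : M.Cl} {R : A} {P : HD J c R} {δ k d : ℝ} {sh : Set A'} {σ : Cel A'}
  {Adm B : (Wi →₀ ℝ) → Prop} {n₀ : ℤ} {e : Bool → A'} {q : Wi →₀ ℝ} {y : J.Obc c}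

/-- the field `HD.OK.taf` with the conclusion `Nr41.TAk` -/
def TakL (P : HD J c R) (Adm : (Wi →₀ ℝ) → Prop) (e : Bool → A') (k d : ℝ) : Prop :=
  ∀ q σ s x ξ m b, Adm q → Ovc J c σ s → σ (e b) = none → 0 < s (e b) →
  AI J c R q s x k ξ → P.Cl s x ξ m →
  deriv (fun t => P.H m q (update s (e b) t)) (s (e b)) ≠ 0 → TAk J c R q s σ d (xf J c s x ξ)

theorem cv_line (q p : Wi →₀ ℝ) : St.Cv (𝓝 (0 : ℝ)) (fun t => q + t • p) q :=
  ⟨p.support, fun t w k => by simp [Finsupp.notMem_support_iff.1 k], fun w => by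
    simpa using ((tendsto_id (x := 𝓝 (0 : ℝ))).mul_const (p w)).const_add (q w)⟩

/-- **Q-TA** -/
theorem tq (H : Cq P δ k sh σ Adm n₀ e) (O : P.OK B e k) (tk : TakL P B e k d) (op : St.IsOp B)
    (hk : KscL J c) (hd : δ < d) (k0 : k ≠ 0) (a : B q) (s : Sol σ q y)
    (lv : y.kap (oI W c R) = k) (t : P.Tr e σ q y) : TQ R δ σ q y := by
  have o := ovc H.mem s
  refine ⟨{q | B q ∧ Sol σ q y ∧ P.Tr e σ q y}, ⟨a, s, t⟩,
    fun q ⟨a, s, b, ξ, f, p, A₀, c₀, d, L⟩ v hv => ?_, fun q ⟨a, s, b, ξ, f, p, A₀, c₀, d, L⟩ => ?_⟩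
  · have cv := cv_line q v
    have g : ∀ q, deriv (fun u => P.H P.g q (update y.s (e b) (2⁻¹ * (u + 1)))) (2 * y.s (e b) - 1) =
        2⁻¹ * deriv (fun u => P.H P.g q (update y.s (e b) u)) (y.s (e b)) := fun q => by
      rw [deriv_comp_add_const fun u => P.H P.g q (update y.s (e b) (2⁻¹ * u)),
        deriv_comp_mul_left _ fun u => P.H P.g q (update y.s (e b) u)]
      simp
    have sm : Smo B fun q u => P.H P.g q (update y.s (e b) (2⁻¹ * (u + 1))) := fun S =>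
      O.sm P.g S _ ((contDiff_update _ _ _).comp (by fun_prop)) fun u hu =>
        ⟨σ, O.line σ _ b o f _ ⟨by linarith [hu.1], by linarith [hu.2]⟩⟩
    filter_upwards [op q a _ _ _ cv, (sm.td op a cv (t := fun _ => 2 * y.s (e b) - 1)
      ⟨by linarith, by linarith [H.lt _ b o]⟩ tendsto_const_nhds).eventually_ne
        (g q ▸ mul_ne_zero (by simp) d),
      (eventually_all (ι := {l // Inn J R l})).2 fun l => mem_iff_ultrafilter.2 fun 𝒰 u =>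
        (hk H.ok σ H.mem ℝ 𝒰 _ _ q y (Tq.cv_le cv u) (.of_forall (hv q s)) s
          ((H.iso H.ok σ H.mem q y s).1 _ _) l (H.inn_unc l.2)).1 (L l l.2)] with u a d L
    exact ⟨a, hv q s u, b, ξ, f, p, A₀, c₀, fun z => d (by rw [g, z, mul_zero]), fun l hl => L ⟨l, hl⟩⟩
  · have I := H.ai s lv A₀
    refine ⟨s, ξ, O.sc, A₀, by_contra fun z => k0 (lv.symm.trans ?_),
      ⟨_, hd, tk q σ _ _ ξ _ b a o f p I c₀ d⟩,
      fun l hl => ⟨(O.flx q _ _ ξ a I).2.2 (.inl c₀) l hl, L l hl⟩⟩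
    exact setIntegral_eq_zero_of_forall_eq_zero fun x hx => by
      simp [Job.Obc.kd, Md.kd, not_not.1 fun n => z ⟨x, hx, n⟩]

end job

variable {κ lam : Type} [Fintype κ] [Fintype lam] [DecidableEq lam] (Lm : LM κ lam)

/-- **LEAF HI** with the abelian part in the form of `Nr41` -/
def HiK : Prop := AllQ Lm fun J c R e z _ => ∃ P : HD J c R, ∃ d > 0, An.Sml fun Adm =>
  P.OK Adm (fun b => .inl (e b)) (z / 4) ∧ TakL P Adm (fun b => .inl (e b)) (z / 4) d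

theorem hiK (tk : HTak Lm) : HiK Lm := fun S D i Wi r n J c R e Q j n₀ T hQ G c1 pj =>
  let ⟨_, β, F⟩ := exists_hf Lm (Pat85.hMov Lm) S D i Wi r n J c R e Q j n₀ T hQ G c1 pj
  let ⟨P, br, hP⟩ := F.hd
  let ⟨d, d0, t⟩ := tk S D i Wi r n J c R e Q j n₀ T hQ G c1 pj
  ⟨P, d, d0, β, F.ob.1, fun Adm le => ⟨hP Adm le, fun q σ s x ξ m b a o k p I C hd =>
    let ⟨f, u, h1, h2, h3, h4, H, h5, h6⟩ := br q σ s x ξ m b (le q a) o k I C hd
    let ⟨l1, l2, _, l3⟩ := F.l1 σ s b o k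
    h4 ▸ t β F.ob q σ s f u _ (le q a) h1 h2 h3 ⟨k, l1, p, l2⟩
      (fun t ht => (l3 t (Ioo_subset_Ico_self ht)).pm) H h5 h6⟩⟩

/-- the leaves on jobs -/
def Jl : Prop := ∀ {S : Scene Lm} {D : S.Dat} {i Wi r n} (J : Job Wi (D.Λ i) (S.A ⊕ Unit) S.ls r n)
  (c : S.M.Cl), ClcL J c ∧ KscL J c ∧ KexL J c ∧ KgenL J c ∧ ∀ δ sh σ Adm n₀, OutL J c δ sh σ Adm n₀

theorem q_of (hi : HiK Lm) (par : ParStmt Lm) (jl : Jl Lm) : QStmt Lm (TA Lm) := by
  intro S D i Wi r n J c R e Q j n₀ T hQ G c1 pj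
  obtain ⟨P, d, d0, β, β0, hβ⟩ := hi S D i Wi r n J c R e Q j n₀ T hQ G c1 pj
  obtain ⟨hc, hk, hx, hg, ho⟩ := jl J c
  obtain ⟨O, tk⟩ := hβ _ fun _ => id
  refine ⟨P.Tr fun b => .inl (e b), _, half_pos d0, fun δ hδ => ⟨β, β0, fun Adm le =>
    ⟨par S D i Wi r n J c R e Q j n₀ T hQ G c1 pj hx P Adm (hβ Adm le).1, fun σ H =>
      ⟨Mp86.Uq.uqq G c1 hc hk (hβ Adm le).1 H, Tq.trqStmt Lm S D i Wi r n J c R e Q j n₀ T hQ G c1 pj
        hc hk hg P Adm δ σ (hβ Adm le).1 (ho _ _ _ _ _) H, fun q y x a s f _ _ ok t => ?_⟩⟩⟩⟩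
  obtain rfl : R = x := singleton_injective (c1.symm.trans f.1.2.1)
  have C := Tq.cq G c1 (hβ Adm le).1 (ho _ _ _ _ _) H ⟨_, ovc H.mem s⟩
  refine .inl (tq C O tk (isOp_ball β 0) hk (hδ.2.trans_lt (half_lt_self d0)) ?_ (le q a) s
    (C.lev q y a s f ok).1 t)
  rcases G.ri.bz with k | ⟨-, k | k⟩
  exacts [(nomatch k.1), by simp [k], by simp [k]]

end Crest.Agent.X212.Tm38.Qt
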